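import Vale.Agent.P269.LN.Defs
import Vale.Agent.P269.G1I.H276.Pow

/-!
# The degree-one coefficient: notation
-/

set_option autoImplicit false

namespace Vale.Agent.P269.LN

open Vale.Agent.P269.CI
open Vale.Agent.P269.G1

variable {X : CompleteIntersection}

/-- the numbers `l n = <h, h^n, h^{dim+ν-1-n}>_{0,1} / deg` -/
structure IsL (F : ℕ → ℕ → List (Ins X) → ℂ) (ν : ℕ) (l : ℕ → ℂ) : Prop where
  val : ∀ i j : Fin (X.dim + 1), (i : ℕ) + j + 1 = X.dim + ν →
    F 0 1 [(hcls X, 0), hpow X i, hpow X j] = deg X * l i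
  big : ∀ n, X.dim < n → l n = 0
  small : ∀ n, n + 1 < ν → l n = 0

/-- the diagonal matrix of `μ` on the ambient part -/
noncomputable def Dm (X : CompleteIntersection) :
    Matrix (Fin (X.dim + 1)) (Fin (X.dim + 1)) (PowerSeries ℂ) :=
  Matrix.diagonal fun i => PowerSeries.C (((i : ℕ) : ℂ) - (X.dim : ℂ) / 2)

/-- the numbers of lines, shifted -/
noncomputable def ell (X : CompleteIntersection) (ν : ℕ) (n : ℕ) : ℂ :=
  if ν ≤ n + 1 then (linePoly X).coeff (n + 1 - ν) else 0

end Vale.Agent.P269.LN
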