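import Vale.Agent.P269.G1I.Defs

/-!
# Curves of degree one on a complete intersection
-/

namespace Vale.Agent.P269.CI

/-- `∏_i d_i ∏_{0 < k < d_i} (d_i - k + k y)`. -/
noncomputable def linePoly (X : CompleteIntersection) : Polynomial ℂ :=
  (X.degs.map fun d : ℕ => Polynomial.C (d : ℂ) * ∏ k ∈ Finset.range (d - 1),
    (Polynomial.C ((d : ℂ) - (k + 1)) + Polynomial.C ((k : ℂ) + 1) * Polynomial.X)).prod

variable {X : CompleteIntersection}

/-- The invariants of degree one used below: the numbers of lines meeting two linear sections,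
and the comparison of standard and reduced genus-one invariants (the reduced ones are zero in
degree one, there being no curves of genus one and degree one). -/
structure IsLine (F : ℕ → ℕ → List (Ins X) → ℂ) : Prop where
  lines : ∀ (i j : Fin (X.dim + 1)) (n : ℕ), index X + n = i + 1 → index X + X.dim = i + j + 1 →
    F 0 1 [(hcls X, 0), hpow X i, hpow X j] = deg X * (linePoly X).coeff n
  reduced : ∀ j : Fin (X.dim + 1), (j : ℤ) = index X + 1 →
    24 * F 1 1 [hpow X j] = ∑ i : Fin (X.dim + 1), ∑ k ∈ Finset.range (X.dim + 1),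
      if (i : ℕ) + k + 2 = X.dim then chernCoeff X i *
        ((∑ l : Fin (X.dim + 1), if (l : ℕ) = i + j then
          F 0 1 [(Sum.inl l, k), (one X, 0)] else 0) - F 0 1 [(Sum.inl i, k), hpow X j]) else 0

end Vale.Agent.P269.CI
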