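import Vale.Agent.P269.LN.Base
import Vale.Agent.P269.G1I.Conc

/-!
# The degree-one coefficient: leaves
-/

namespace Vale.Agent.P269.LN

open Finset.HasAntidiagonal (antidiagonal)
open Vale.Agent.P269.CI
open Vale.Agent.P269.G1

variable {X : CompleteIntersection} {F : ℕ → ℕ → List (Ins X) → ℂ}

/-! ## [A] the defect at the origin -/

/-- **[A1]** powers of the matrix at the origin modulo `q ^ 2` -/
theorem coeff_pow (hF : IsGW X F) (ν : ℕ) (hν : index X = ν) (h2 : 2 ≤ ν) (l : ℕ → ℂ)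
    (hl : IsL F ν l) (b : ℕ) (i j : Fin (X.dim + 1)) :
    PowerSeries.coeff 0 (((qmul F) ^ b) i j) = (if (j : ℕ) = i + b then 1 else 0) ∧
    PowerSeries.coeff 1 (((qmul F) ^ b) i j) =
      (if (j : ℕ) + ν = i + b then ∑ t ∈ Finset.range b, l (i + t) else 0) := by
  sorry

/-- **[A2a]** from A1 -/
theorem trace_pow (hF : IsGW X F) (ν : ℕ) (hν : index X = ν) (h2 : 2 ≤ ν) (l : ℕ → ℂ)
    (hl : IsL F ν l) : PowerSeries.coeff 1 (Matrix.trace ((qmul F) ^ ν)) =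
      ν * ∑ n ∈ Finset.range (X.dim + 1), l n := by
  sorry

/-- **[A2b]** from A1 -/
theorem trace_mu (hF : IsGW X F) (ν : ℕ) (hν : index X = ν) (h2 : 2 ≤ ν) (l : ℕ → ℂ)
    (hl : IsL F ν l) : ∑ b ∈ Finset.range (ν + 1), PowerSeries.coeff 1
      (Matrix.trace (Dm X * (qmul F) ^ (ν - b) * Dm X * (qmul F) ^ b)) =
      ∑ n ∈ Finset.range (X.dim + 1), l n *
        ((ν : ℂ) * (ν + 1) * ((n : ℂ) - (X.dim + ν - 1) / 2) ^ 2 +
          (ν : ℂ) * ((ν : ℂ) ^ 2 - 1) / 12) := by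
  sorry

variable (hF : IsGW X F) (h1 : IsGenusOne F)

/-- **[A3]** the genus-one part at the origin (from A1, the divisor equation and `ev0_pow`) -/
theorem G_part (ν : ℕ) (hν : index X = ν) (h2 : 2 ≤ ν) (hr : ν + 1 ≤ X.dim) (l : ℕ → ℂ)
    (hl : IsL F ν l) : PowerSeries.coeff 1 (H276.ev0 X (GG hF h1 (Eu hF h1 ^ (ν + 1)))) =
      (ν : ℂ) ^ (ν + 1) * (F 1 1 [hpow X ⟨ν + 1, by omega⟩] -
        deg X * chernCoeff X (X.dim - 1) / 24 * (l ν + l (ν - 1))) := by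
  sorry

/-- **[A4]** `λ(E)` is zero at the origin -/
theorem lam_zero (hi : 2 ≤ index X) (v : X.Prim) : H276.ev0 X (lam hF h1 (Eu hF h1) v) = 0 := by
  sorry

/-- **[A5]** the supertrace of `E^ν` at the origin (`A2a`, `A4`) -/
theorem str_pow (ν : ℕ) (hν : index X = ν) (h2 : 2 ≤ ν) (l : ℕ → ℂ) (hl : IsL F ν l) :
    PowerSeries.coeff 1 (H276.ev0 X (strO hF h1 (CC hF h1 (Eu hF h1 ^ ν)))) =
      (ν : ℂ) ^ (ν + 1) * ∑ n ∈ Finset.range (X.dim + 1), l n := by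
  sorry

/-- **[A6]** `E^{ν-b} d(E^b)` at the origin (`A1`, `A5`, `str 1 = χ`) -/
theorem str_d (ν : ℕ) (hν : index X = ν) (h2 : 2 ≤ ν) (hr : ν + 1 ≤ X.dim) (l : ℕ → ℂ)
    (hl : IsL F ν l) (b : ℕ) (hb : b ≤ ν) :
    PowerSeries.coeff 1 (H276.ev0 X (strO hF h1 (CC hF h1
      (Eu hF h1 ^ (ν - b) * dd hF h1 (Eu hF h1 ^ b))))) =
      (b : ℂ) * ((ν : ℂ) ^ (ν + 1) * ∑ n ∈ Finset.range (X.dim + 1), l n) -
        (if b = ν then (ν : ℂ) ^ (ν + 1) * l (ν - 1) * (deg X * chernCoeff X X.dim) else 0) := by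
  sorry

/-- **[A7]** the quadratic part at the origin (`A2b`, `A4`) -/
theorem str_mu (ν : ℕ) (hν : index X = ν) (h2 : 2 ≤ ν) (l : ℕ → ℂ) (hl : IsL F ν l) :
    ∑ b ∈ Finset.range (ν + 1), PowerSeries.coeff 1 (H276.ev0 X (strO hF h1
      (muO hF h1 * CC hF h1 (Eu hF h1 ^ (ν - b)) * muO hF h1 * CC hF h1 (Eu hF h1 ^ b)))) =
      (ν : ℂ) ^ ν * ∑ n ∈ Finset.range (X.dim + 1), l n *
        ((ν : ℂ) * (ν + 1) * ((n : ℂ) - (X.dim + ν - 1) / 2) ^ 2 +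
          (ν : ℂ) * ((ν : ℂ) ^ 2 - 1) / 12) := by
  sorry

include h1 in
/-- **[A]** (`vir_small`, `A3`, `A5`, `A6`, `A7`) -/
theorem vir_deg_one (ν : ℕ) (hν : index X = ν) (h2 : 2 ≤ ν) (hr : ν + 1 ≤ X.dim)
    (l : ℕ → ℂ) (hl : IsL F ν l) :
    24 * virasoro X F (ν + 1) 1 1 [] = - (ν : ℂ) ^ (ν + 1) *
      (24 * F 1 1 [hpow X ⟨ν + 1, by omega⟩]
        - deg X * chernCoeff X (X.dim - 1) * (l ν + l (ν - 1))
        - l (ν - 1) * (deg X * chernCoeff X X.dim)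
        + (ν + 1) * (6 * ∑ n ∈ Finset.range (X.dim + 1),
              l n * ((n : ℂ) - (X.dim + ν - 1) / 2) ^ 2
            + (2 * ν - 1 - X.dim) / 2 * ∑ n ∈ Finset.range (X.dim + 1), l n)) := by
  sorry

/-! ## [B] the numbers -/

/-- **[B0]** (the degree of `linePoly` is `excess`) -/
theorem isL_ell (hL : IsLine F) (ν : ℕ) (hν : index X = ν) (h2 : 2 ≤ ν) : IsL F ν (ell X ν) := by
  sorry

/-- **[B1]** `ell` has sum `∏ d^d` -/
theorem sum_ell (ν : ℕ) (hν : index X = ν) (h2 : 2 ≤ ν) :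
    ∑ n ∈ Finset.range (X.dim + 1), ell X ν n = (X.degs.map fun d : ℕ => (d : ℂ) ^ d).prod := by
  sorry

/-- **[B2]** the second moment -/
theorem moment_ell (ν : ℕ) (hν : index X = ν) (h2 : 2 ≤ ν) :
    ∑ n ∈ Finset.range (X.dim + 1), ell X ν n * ((n : ℂ) - (X.dim + ν - 1) / 2) ^ 2 =
      (X.degs.map fun d : ℕ => (d : ℂ) ^ d).prod *
        (X.degs.map fun d : ℕ => ((d : ℂ) - 1 / d) / 6).sum := by
  sorry

/-- **[B3]** two-point descendants in degree one: divisor equation and topological recursion -/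
theorem two_point (hF : IsGW X F) (ν : ℕ) (hν : index X = ν) (h2 : 2 ≤ ν) (l : ℕ → ℂ)
    (hl : IsL F ν l) (k : ℕ) (a b : Fin (X.dim + 1)) (h : (a : ℕ) + b + k + 1 = X.dim + ν) :
    F 0 1 [(Sum.inl a, k), (Sum.inl b, 0)] =
      deg X * ∑ i ∈ Finset.range (k + 1), (-1) ^ i * (k.choose i : ℂ) * l (a + i) := by
  sorry

/-- **[B4a]** convolution with the Chern class; here `ell` is a coefficient of
`(1 + h)^{ν-1} ∏ d ∏_k (k + d h)` -/
theorem chern_one (ν : ℕ) (hν : index X = ν) (h2 : 2 ≤ ν) :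
    ∑ j ∈ Finset.range (X.dim - 1), chernCoeff X j *
        ∑ i ∈ Finset.range (X.dim - 2 - j + 1), (-1) ^ i * ((X.dim - 2 - j).choose i : ℂ) *
          ell X ν (j + i) +
      chernCoeff X (X.dim - 1) * (ell X ν (X.dim - 1) + ell X ν X.dim) +
      chernCoeff X X.dim * ell X ν X.dim -
    ∑ j ∈ Finset.range (X.dim - ν), chernCoeff X j *
        ∑ i ∈ Finset.range (X.dim - 2 - j + 1), (-1) ^ i * ((X.dim - 2 - j).choose i : ℂ) *
          ell X ν (j + ν + 1 + i) =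
    (X.degs.map fun d : ℕ => (d : ℂ) ^ (d - 1)).prod * ((ν : ℂ) + 1) *
      ((ν : ℂ) / 2 + (X.degs.map fun d : ℕ => ((d : ℂ) + 1) / 2 - 1 / d).sum) := by
  sorry

/-- **[B]** (`B0`-`B4`) -/
theorem number (hF : IsGW X F) (hL : IsLine F) (ν : ℕ) (hν : index X = ν) (h2 : 2 ≤ ν)
    (hr : ν + 1 ≤ X.dim) :
    24 * F 1 1 [hpow X ⟨ν + 1, by omega⟩] =
      deg X * (chernCoeff X (X.dim - 1) * (ell X ν (X.dim - 1) + ell X ν X.dim) +
        chernCoeff X X.dim * ell X ν X.dim) -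
      (X.degs.map fun d : ℕ => (d : ℂ) ^ d).prod * ((ν : ℂ) + 1) *
        ((ν : ℂ) / 2 + (X.degs.map fun d : ℕ => ((d : ℂ) + 1) / 2 - 1 / d).sum) := by
  sorry

include h1 in
/-- **[C]** -/
theorem vir_line (hL : IsLine F) (hi : 2 ≤ index X) (hr : index X + 1 ≤ X.dim) (k : ℕ)
    (hk : index X = k) : virasoro X F (k + 1) 1 1 [] = 0 := by
  sorry

end Vale.Agent.P269.LN
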